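import Vale.Agent.P281.H342.KG.ME3

/-! P281, theorem KG, block ME: the local form of the sum of the squares of the norms of sections of
`m (K_X + Δ)` which generate, locally, the product of an ideal generated by functions without common
zero by powers of equations of smooth hypersurfaces. -/

open scoped Manifold ContDiff Topology ComplexOrder Matrix
open Set Filter Vale.Agent.P281 Vale.Agent.P272.K Vale.Agent.P299.H223
open Vale.Agent.P284.H248 Vale.Agent.P285.TM Vale.Agent.P285.H591.TM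
open Vale.Agent.P281.H949.SA Vale.Agent.P281.H716 Vale.Agent.P281.H716.IsSys
open Vale.Agent.P272.K.AMP (hess)
open Vale.Agent.P272.K.INT (IsClosedForm)
open Vale.Agent.P281.H342.KD

set_option linter.all false

noncomputable section

namespace Vale.Agent.P281.H342.KG

open Vale.Agent.P281.H949.GM (holAt_chart holAt_ev tsymm ev_of_symm cHess_change)

variable {n : ℕ} {X : Type} [TopologicalSpace X] [ChartedSpace (Cm n) X]
  [IsManifold 𝓘(ℂ, Cm n) ω X] {κ : Type} {eqn : κ → X → (X → ℂ) → Prop} {T : Finset κ}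
  {M : ℕ} {Dv : Fin M → κ} {ψ : Fin M → X → X → ℝ} {φ : Chart n X → Cm n → ℝ} {k : κ → ℕ} {m : ℕ}
  {s : X → ℂ} {e c : Chart n X} {x p : X} {dl : Fin M → ℝ}

/-- the weight of the metric of `K_X + ∑ dl i Dv i` -/
def pw (Dv : Fin M → κ) (ψ : Fin M → X → X → ℝ) (φ : Chart n X → Cm n → ℝ) (dl : Fin M → ℝ)
    (p : X) (c : Chart n X) (y : X) : ℝ := φ c (c y) + ∑ i, dl i * ψ i p y

lemma pw_smooth (h : IsSys n eqn T) (hDv : ∀ i, Dv i ∈ T)
    (hψ : ∀ i, Wt (OD h (Dv i) (hDv i)) (ψ i)) (hφ : IsCanonicalMetric φ) (hp : x ∈ h.dom p)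
    (hc : At c x) (he : At e x) :
    ContDiffAt ℝ ∞ (fun z => pw Dv ψ φ dl p c (e.symm z)) (e x) := by
  have h1 : ContDiffAt ℂ ω (fun z => c (e.symm z)) (e x) := Vale.Agent.P272.K.transition he hc
  have h2 : ContDiffAt ℝ ∞ (fun z => φ c (c (e.symm z))) (e x) := by
    refine ContDiffAt.comp (e x) (g := φ c) ?_ ((h1.restrict_scalars ℝ).of_le (by exact le_top))
    rw [he.left_inv]
    exact hφ.smooth c x hc
  exact h2.add (ContDiffAt.sum fun i _ => contDiffAt_const.mul ((hψ i).smooth p e x he hp))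

lemma pw_hess (h : IsSys n eqn T) (hDv : ∀ i, Dv i ∈ T)
    (hψ : ∀ i, Wt (OD h (Dv i) (hDv i)) (ψ i)) (hφ : IsCanonicalMetric φ) (hp : x ∈ h.dom p)
    (hc : At c x) (he : At e x) : H713.KD.clsK φ dl
      (fun i => cv (OD h (Dv i) (hDv i)) (ψ i)) e (e x) = hess (pw Dv ψ φ dl p c) e (e x) := by
  have h1 : ContDiffAt ℝ 2 (φ c) (c x) := (hφ.smooth c x hc).of_le two_le_infty
  have h2 : ∀ i, ContDiffAt ℝ 2 (fun z => ψ i p (c.symm z)) (c x) := fun i =>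
    ((hψ i).smooth p c x hc hp).of_le two_le_infty
  have h3 : ContDiffAt ℝ 2 (fun z => ∑ i, dl i * ψ i p (c.symm z)) (c x) :=
    ContDiffAt.sum fun i _ => contDiffAt_const.mul (h2 i)
  have h4 : cHess (fun z => pw Dv ψ φ dl p c (c.symm z)) (c x) = H713.KD.clsK φ dl
      (fun i => cv (OD h (Dv i) (hDv i)) (ψ i)) c (c x) := by
    have h5 : (fun z => pw Dv ψ φ dl p c (c.symm z)) =ᶠ[𝓝 (c x)]
        fun z => φ c z + ∑ i, dl i * ψ i p (c.symm z) := by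
      filter_upwards [hc.nhds_target] with z hz
      unfold pw
      rw [c.right_inv hz]
    rw [cHess_congr h5, cHess_add h1 h3, cHess_fsum dl h2 Finset.univ]
    show _ = cHess (φ c) (c x) + ∑ i, ((dl i : ℝ) : ℂ) • cv (OD h (Dv i) (hDv i)) (ψ i) c (c x)
    congr 1
    refine Finset.sum_congr rfl fun i _ => ?_
    rw [cv_eq (hψ i) hc (i := p) hp]
    rfl
  have h5 := (closed_cls (dl := dl) (fun i => isClosedForm_cv (hψ i)) hφ).form e c x he hc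
  have h6 := cHess_change (u := pw Dv ψ φ dl p c) he hc
    ((pw_smooth h hDv hψ hφ hp hc hc).of_le two_le_infty)
  rw [h4] at h6
  exact h5.trans h6.symm

/-- the frames of `m K_X + ∑ k(D) D` given by local equations -/
lemma rep0 (h : IsSys n eqn T) (hk : ∀ D, k D ≠ 0 → D ∈ T) {T' : Finset κ} {q : κ → X → ℂ}
    (hT' : ∀ D, k D ≠ 0 → D ∈ T') (hq : ∀ D ∈ T', eqn D x (q D)) :
    ∃ u : X → ℂ, HolV (Cm n) u x ∧ u x ≠ 0 ∧ ∀ (s A : X → ℂ), HolV (Cm n) A x →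
      (∀ᶠ z in 𝓝 x, ∏ D ∈ T', q D z ^ k D ≠ 0 → s z * ∏ D ∈ T', q D z ^ k D =
        A z * dj (chartAt (Cm n) x) z ^ m) →
      cR eqn T (h.GG k x) m s (chartAt (Cm n) x) =ᶠ[𝓝 x] fun z => A z * u z := by
  obtain ⟨w, hw, hw0, hwe⟩ := h.prod_unit hk hT' hq (h.self_mem_dom x)
  have hc : At (chartAt (Cm n) x) x := ⟨chart_mem_atlas _ _, mem_chart_source _ _⟩
  have hu : HolV (Cm n) (fun z => 1 / w z) x := (HolV.const 1 x).div hw hw0
  refine ⟨fun z => 1 / w z, hu, div_ne_zero one_ne_zero hw0, fun s A hA hev => ?_⟩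
  refine ext_ev h.dense_off (hA.mul hu) ?_
  filter_upwards [hev, hwe, h.prod_ne hk hq, hw.continuousAt.eventually_ne hw0, at_ev hc]
    with z h1 h2 h3 h4 h5 hz
  have h7 := h1 (h3 hz)
  rw [h2] at h7
  have h8 : dj (chartAt (Cm n) x) z ^ m ≠ 0 := pow_ne_zero _ (dj_ne_zero h5)
  rw [div_eq_iff h8]
  have h9 : s z * h.GG k x z * w z = A z * dj (chartAt (Cm n) x) z ^ m := by rw [← h7]; ring
  rw [← mul_div_assoc, mul_one, div_mul_eq_mul_div, eq_div_iff h4, h9]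

/-- **the local form of the sum of the squares of the norms** -/
theorem locAt (h : IsSys n eqn T) (hprod : ∀ f : κ → ℂ, ∏ i, f (Dv i) = ∏ D ∈ T, f D)
    (hDv : ∀ i, Dv i ∈ T) (hψ : ∀ i, Wt (OD h (Dv i) (hDv i)) (ψ i)) (hφ : IsCanonicalMetric φ)
    (hk : ∀ D, k D ≠ 0 → D ∈ T) (hkd : ∀ i, (k (Dv i) : ℝ) = m * dl i) {N : ℕ}
    {S : Fin N → X → ℂ} (hS : ∀ b, J.IsSection (Cm n) eqn m k (S b)) {T' : Finset κ}
    {q : κ → X → ℂ} {r : ℕ} {g : Fin r → X → ℂ} {a : Fin r → ℕ} {H : Fin N → X → ℂ}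
    (hT' : ∀ D, k D ≠ 0 → D ∈ T') (hq : ∀ D ∈ T', eqn D x (q D))
    (hg : ∀ i, J.HolAt (Cm n) (g i) x ∧ J.dif (Cm n) (g i) x ≠ 0)
    (hH : ∀ b, J.HolAt (Cm n) (H b) x) (hne : ∃ b, H b x ≠ 0)
    (hev : ∀ᶠ z in 𝓝 x, ∏ D ∈ T', q D z ^ k D ≠ 0 → ∀ b, S b z * ∏ D ∈ T', q D z ^ k D =
      (∏ i, g i z ^ a i) * H b z * ContinuousLinearMap.det
        (mfderiv 𝓘(ℂ, Cm n) 𝓘(ℂ, Cm n) (chartAt (Cm n) x) z : Cm n →L[ℂ] Cm n) ^ m) :
    ∃ u : X → ℂ, J.HolAt (Cm n) u x ∧ u x ≠ 0 ∧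
      H167.KG.LocAt m (H713.KD.clsK φ dl fun i => cv (OD h (Dv i) (hDv i)) (ψ i))
        (fun y => ∑ b, nrm h Dv ψ φ k m (S b) y) x g a (fun b z => H b z * u z) := by
  have hc : At (chartAt (Cm n) x) x := ⟨chart_mem_atlas _ _, mem_chart_source _ _⟩
  obtain ⟨u, hu, hu0, hrep⟩ := rep0 (m := m) h hk hT' hq
  have hP : HolV (Cm n) (fun z => ∏ i, g i z ^ a i) x := HolV.prod fun i _ => (hg i).1.pow _
  have h1 : ∀ b, cR eqn T (h.GG k x) m (S b) (chartAt (Cm n) x) =ᶠ[𝓝 x]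
      fun z => (∏ i, g i z ^ a i) * H b z * u z := by
    intro b
    refine hrep (S b) (fun z => (∏ i, g i z ^ a i) * H b z) (hP.mul (hH b)) ?_
    filter_upwards [hev] with z hz hz2
    exact hz hz2 b
  refine ⟨u, hu, hu0, hg, fun b => ContMDiffAt.mul (hH b) hu, ?_, pw Dv ψ φ dl x
    (chartAt (Cm n) x), fun e he => pw_smooth h hDv hψ hφ (h.self_mem_dom x) hc he, ?_⟩
  · obtain ⟨b, hb⟩ := hne
    exact ⟨b, mul_ne_zero hb hu0⟩
  · filter_upwards [eventually_all.2 h1, h.dom_ev (h.self_mem_dom x), at_ev hc] with y h2 h3 h4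
    refine ⟨fun e he => pw_hess h hDv hψ hφ h3 h4 he, ?_⟩
    have h5 : -wg Dv ψ φ k m x (chartAt (Cm n) x) (chartAt (Cm n) x y) =
        -m * pw Dv ψ φ dl x (chartAt (Cm n) x) y := by
      unfold wg pw
      rw [h4.left_inv, mul_add, Finset.mul_sum, neg_add]
      congr 1
      · ring
      · rw [← Finset.sum_neg_distrib]
        refine Finset.sum_congr rfl fun i _ => ?_
        rw [hkd]
        ring
    have h6 : ∀ b, nrm h Dv ψ φ k m (S b) y = ‖∏ i, g i y ^ a i‖ ^ 2 * ‖H b y * u y‖ ^ 2 *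
        Real.exp (-m * pw Dv ψ φ dl x (chartAt (Cm n) x) y) := by
      intro b
      rw [nrm_eq h hprod hDv hψ hφ hk (hS b) h3 h4, h2 b, h5, mul_assoc (∏ i, g i y ^ a i),
        norm_mul, mul_pow]
    rw [Finset.sum_congr rfl fun b _ => h6 b, ← Finset.sum_mul, ← Finset.mul_sum]

/-- the quotients of the sections, off the divisors -/
lemma quot_ev (h : IsSys n eqn T) (hk : ∀ D, k D ≠ 0 → D ∈ T) {N : ℕ}
    {S : Fin N → X → ℂ} {T' : Finset κ}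
    {q : κ → X → ℂ} {r : ℕ} {g : Fin r → X → ℂ} {a : Fin r → ℕ} {H : Fin N → X → ℂ}
    (hq : ∀ D ∈ T', eqn D x (q D))
    (hg : ∀ i, J.HolAt (Cm n) (g i) x ∧ J.dif (Cm n) (g i) x ≠ 0)
    (hH : ∀ b, J.HolAt (Cm n) (H b) x)
    (hev : ∀ᶠ z in 𝓝 x, ∏ D ∈ T', q D z ^ k D ≠ 0 → ∀ b, S b z * ∏ D ∈ T', q D z ^ k D =
      (∏ i, g i z ^ a i) * H b z * ContinuousLinearMap.det
        (mfderiv 𝓘(ℂ, Cm n) 𝓘(ℂ, Cm n) (chartAt (Cm n) x) z : Cm n →L[ℂ] Cm n) ^ m)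
    (hx : x ∈ off eqn T) {b₀ : Fin N} (hb₀ : S b₀ x ≠ 0) : H b₀ x ≠ 0 ∧
      ∀ᶠ z in 𝓝 x, ∀ b, S b z / S b₀ z = H b z / H b₀ z := by
  have hne := (h.prod_ne hk hq).self_of_nhds hx
  have h1 := hev.self_of_nhds hne b₀
  have hP : HolV (Cm n) (fun z => ∏ i, g i z ^ a i) x := HolV.prod fun i _ => (hg i).1.pow _
  have hc : At (chartAt (Cm n) x) x := ⟨chart_mem_atlas _ _, mem_chart_source _ _⟩
  have h2 : (∏ i, g i x ^ a i) ≠ 0 := by
    intro h0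
    rw [h0, zero_mul, zero_mul] at h1
    exact mul_ne_zero hb₀ hne h1
  have h3 : H b₀ x ≠ 0 := by
    intro h0
    rw [h0, mul_zero, zero_mul] at h1
    exact mul_ne_zero hb₀ hne h1
  refine ⟨h3, ?_⟩
  filter_upwards [hev, h.prod_ne hk hq, h.isOpen_off.mem_nhds hx,
    hP.continuousAt.eventually_ne h2, (hH b₀).continuousAt.eventually_ne h3, at_ev hc]
    with z e1 e2 e3 e4 e5 e6 b
  have e7 := e2 e3
  have e8 := e1 e7
  have e9 : dj (chartAt (Cm n) x) z ^ m ≠ 0 := pow_ne_zero _ (dj_ne_zero e6)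
  have e10 : ∀ b, S b z = (∏ i, g i z ^ a i) * dj (chartAt (Cm n) x) z ^ m /
      (∏ D ∈ T', q D z ^ k D) * H b z := by
    intro b
    have := e8 b
    rw [div_mul_eq_mul_div, eq_div_iff e7, this]
    show (∏ i, g i z ^ a i) * H b z * dj (chartAt (Cm n) x) z ^ m = _
    ring
  rw [e10 b, e10 b₀]
  exact mul_div_mul_left _ _ (div_ne_zero (mul_ne_zero e4 e9) e7)

/-- **the kernel of the form `θ` of `FormPartG`, in terms of the sections** -/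
theorem ker_sec (h : IsSys n eqn T) (hk : ∀ D, k D ≠ 0 → D ∈ T) {N : ℕ}
    {S : Fin N → X → ℂ} {T' : Finset κ}
    {q : κ → X → ℂ} {r : ℕ} {g : Fin r → X → ℂ} {a : Fin r → ℕ} {H : Fin N → X → ℂ}
    (hq : ∀ D ∈ T', eqn D x (q D))
    (hg : ∀ i, J.HolAt (Cm n) (g i) x ∧ J.dif (Cm n) (g i) x ≠ 0)
    (hH : ∀ b, J.HolAt (Cm n) (H b) x)
    (hev : ∀ᶠ z in 𝓝 x, ∏ D ∈ T', q D z ^ k D ≠ 0 → ∀ b, S b z * ∏ D ∈ T', q D z ^ k D =
      (∏ i, g i z ^ a i) * H b z * ContinuousLinearMap.det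
        (mfderiv 𝓘(ℂ, Cm n) 𝓘(ℂ, Cm n) (chartAt (Cm n) x) z : Cm n →L[ℂ] Cm n) ^ m)
    {u : X → ℂ} (hu : J.HolAt (Cm n) u x) (hu0 : u x ≠ 0)
    {θ : Chart n X → Cm n → Matrix (Fin n) (Fin n) ℂ}
    (hθ : ∀ e, At e x → ∀ b₀, H b₀ x * u x ≠ 0 → ∀ v : Cm n,
      (∀ j, ∑ i, v i * θ e (e x) i j = 0) ↔
        ∀ b, fderiv ℂ (fun z => H b (e.symm z) * u (e.symm z) /
          (H b₀ (e.symm z) * u (e.symm z))) (e x) v = 0)
    (hx : x ∈ off eqn T) {b₀ : Fin N} (hb₀ : S b₀ x ≠ 0) (he : At e x) (v : Cm n) :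
    (∀ j, ∑ i, v i * θ e (e x) i j = 0) ↔
      ∀ b, fderiv ℂ (fun z => S b (e.symm z) / S b₀ (e.symm z)) (e x) v = 0 := by
  obtain ⟨h1, h2⟩ := quot_ev h hk hq hg hH hev hx hb₀
  rw [hθ e he b₀ (mul_ne_zero h1 hu0) v]
  refine forall_congr' fun b => ?_
  have h3 : (fun z => H b (e.symm z) * u (e.symm z) / (H b₀ (e.symm z) * u (e.symm z))) =ᶠ[𝓝 (e x)]
      fun z => S b (e.symm z) / S b₀ (e.symm z) := by
    filter_upwards [(tsymm he).eventually h2,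
      (tsymm he).eventually (hu.continuousAt.eventually_ne hu0)] with z h4 h5
    rw [h4 b, mul_div_mul_right _ _ h5]
  rw [h3.fderiv_eq]

end Vale.Agent.P281.H342.KG
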