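import Vale.Agent.P281.H342.KG.F1
import Vale.Agent.P281.H167.KG.Iface

/-! P281, theorem KG, block F: `FormPartG`. -/

open scoped Manifold ContDiff Topology ComplexOrder
open Set Filter Vale.Agent.P281.J Vale.Agent.P272.K Vale.Agent.P272.K.AMP
open Vale.Agent.P299
open Vale.Agent.P272.K.INT (IsClosedForm)

set_option linter.all false

noncomputable section

namespace Vale.Agent.P281.H342.KG

open Vale.Agent.P281.H949.SA Vale.Agent.P281.H713.SA Vale.Agent.P299.H223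
open Vale.Agent.P281.H949.GM (holAt_chart holAt_ev tsymm ev_of_symm)
open Vale.Agent.P281.H167.KG (LocAt)

variable {n : ℕ} {X : Type} [TopologicalSpace X] [ChartedSpace (Cm n) X]
  {x : X}

lemma freq_of_dif {g : X → ℂ} (h : dif (Cm n) g x ≠ 0) : ∃ᶠ z in 𝓝 x, g z ≠ 0 := by
  intro hcon
  apply h
  have h1 : g =ᶠ[𝓝 x] fun _ => (0 : ℂ) := by
    filter_upwards [hcon] with z hz
    exact not_not.1 hz
  unfold dif
  rw [h1.mfderiv_eq]
  exact mfderiv_const

variable [IsManifold 𝓘(ℂ, Cm n) ω X]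

lemma freq_mul {f g : X → ℂ} (hf : HolAt (Cm n) f x) (hg : HolAt (Cm n) g x)
    (h1 : ∃ᶠ z in 𝓝 x, f z ≠ 0) (h2 : ∃ᶠ z in 𝓝 x, g z ≠ 0) : ∃ᶠ z in 𝓝 x, f z * g z ≠ 0 := by
  intro hcon
  have hex : At (chartAt (Cm n) x) x := ⟨chart_mem_atlas _ _, mem_chart_source _ _⟩
  rcases Vale.Agent.P301.H508.zero_or (holAt_chart hex hf).analyticAt
    (holAt_chart hex hg).analyticAt (by
      filter_upwards [(tsymm hex).eventually hcon] with z hz
      exact not_not.1 hz) with h | h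
  · refine h1 (ev_of_symm hex ?_)
    filter_upwards [h] with z hz using not_not.2 hz
  · refine h2 (ev_of_symm hex ?_)
    filter_upwards [h] with z hz using not_not.2 hz

lemma freq_prod {r : ℕ} {g : Fin r → X → ℂ} (a : Fin r → ℕ) (hg : ∀ i, HolAt (Cm n) (g i) x)
    (h : ∀ i, ∃ᶠ z in 𝓝 x, g i z ≠ 0) (s : Finset (Fin r)) :
    HolAt (Cm n) (fun z => ∏ i ∈ s, g i z ^ a i) x ∧ ∃ᶠ z in 𝓝 x, ∏ i ∈ s, g i z ^ a i ≠ 0 := by
  classical
  induction s using Finset.induction_on with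
  | empty =>
    refine ⟨?_, ?_⟩
    · simp only [Finset.prod_empty]
      exact contMDiffAt_const
    · simp only [Finset.prod_empty]
      exact (Eventually.of_forall fun _ => one_ne_zero).frequently
  | insert b s hb ih =>
    have h1 : HolAt (Cm n) (fun z => g b z ^ a b) x := by
      have := hg b
      exact ContMDiffAt.pow this (a b)
    have h2 : ∃ᶠ z in 𝓝 x, g b z ^ a b ≠ 0 := (h b).mono fun z hz => pow_ne_zero _ hz
    simp only [Finset.prod_insert hb]
    exact ⟨h1.mul ih.1, freq_mul h1 ih.1 h2 ih.2⟩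

/-- smoothness near a point, in all charts -/
lemma smooth2_ev {ψ : X → ℝ} (h : ∀ e : Chart n X, At e x →
    ContDiffAt ℝ 2 (fun z => ψ (e.symm z)) (e x)) :
    ∀ᶠ y in 𝓝 x, ∀ e : Chart n X, At e y → ContDiffAt ℝ 2 (fun z => ψ (e.symm z)) (e y) := by
  have hex : At (chartAt (Cm n) x) x := ⟨chart_mem_atlas _ _, mem_chart_source _ _⟩
  set c : Chart n X := chartAt (Cm n) x with hc
  have h1 := (h c hex).eventually (by simp)
  filter_upwards [(c.continuousAt hex.2).eventually h1, c.open_source.mem_nhds hex.2]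
    with y hy hyc e he
  have hcy : At c y := ⟨hex.1, hyc⟩
  have h2 : (fun z => ψ (e.symm z)) =ᶠ[𝓝 (e y)] fun z => ψ (c.symm (c (e.symm z))) := by
    filter_upwards [he.nhds_at hcy] with z hz
    rw [hz.2.2.left_inv]
  refine ContDiffAt.congr_of_eventuallyEq ?_ h2
  have h3 : ContDiffAt ℂ ω (fun z => c (e.symm z)) (e y) := Vale.Agent.P272.K.transition he hcy
  refine ContDiffAt.comp (e y) (g := fun z => ψ (c.symm z)) ?_
    ((h3.restrict_scalars ℝ).of_le (by exact le_top))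
  rw [he.left_inv]
  exact hy

variable {m r N : ℕ} {Λ : D.FormM n X} {ρ : X → ℝ} {g : Fin r → X → ℂ} {a : Fin r → ℕ}
  {H : Fin N → X → ℂ} {e : Chart n X}

theorem toLoc (h : LocAt m Λ ρ x g a H) : ∃ ψ : X → ℝ,
    (∀ e : Chart n X, At e x → ContDiffAt ℝ ∞ (fun z => ψ (e.symm z)) (e x)) ∧
    Loc m Λ ρ x (fun y => ∏ i, g i y ^ a i) H ψ := by
  obtain ⟨hg, hH, ⟨b, hb⟩, ψ, hψ, hev⟩ := h
  have h1 := freq_prod a (fun i => (hg i).1) (fun i => freq_of_dif (hg i).2) Finset.univ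
  refine ⟨ψ, hψ, h1.1, h1.2, hH, fun h0 => hb (congrFun h0 b),
    smooth2_ev fun e he => (hψ e he).of_le H716.IsSys.two_le_infty, ?_, ?_⟩
  · filter_upwards [hev] with y hy using hy.1
  · filter_upwards [hev] with y hy
    rw [hy.2, neg_mul]
    rfl

/-- **Block KG-F.** -/
theorem formPartG : H167.KG.FormPartG := by
  intro n X _ _ _ _ _ _ χ hχ m hm Λ hΛ ρ hloc
  have hL : ∀ x, ∃ (N : ℕ) (P : X → ℂ) (H : Fin N → X → ℂ) (ψ : X → ℝ),
      (∀ e : Chart n X, At e x → ContDiffAt ℝ ∞ (fun z => ψ (e.symm z)) (e x)) ∧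
      Loc m Λ ρ x P H ψ := by
    intro x
    obtain ⟨r, N, g, a, H, h⟩ := hloc x
    obtain ⟨ψ, h1, h2⟩ := toLoc h
    exact ⟨N, _, H, ψ, h1, h2⟩
  choose N P H ψ hψ hS using hL
  obtain ⟨C, hC0, hC⟩ := Vale.Agent.P272.K.AMP.Main.exists_comparison'
    (b := fun e z => -Λ e z) hχ.toIsHermitian
    (fun e x h i j => (hΛ.smooth e x h i j).neg) (fun e e' x h h' => by
      show -Λ e (e x) = _ * -Λ e' (e' x) * _
      have h1 : Λ e (e x) = (jacM e e' x).transpose * Λ e' (e' x) *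
        (jacM e e' x).map (starRingEnd ℂ) := hΛ.form e e' x h h'
      rw [h1, Matrix.mul_neg, Matrix.neg_mul]) (fun e x h => by
      have h1 : (cHess (fun z => ψ x (e.symm z)) (e x)).IsHermitian :=
        C2.cHess_isHermitian ((hψ x e h).of_le H716.IsSys.two_le_infty)
      have h2 : Λ e (e x) = hess (ψ x) e (e x) := (hS x).form.self_of_nhds e h
      rw [h2]
      exact h1.neg)
  have hρ0 : ∀ x, 0 ≤ ρ x := by
    intro x
    rw [(hS x).eq.self_of_nhds]
    exact mul_nonneg (mul_nonneg (sq_nonneg _) (nsq_nonneg _)) (Real.exp_pos _).le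
  refine ⟨C, th m H, hC0.le, fun e x he => (hS x).smooth_rho he (hψ x e he), hρ0, ?_,
    th_closed hS hm, fun e x he => th_psd hS he, ?_, ?_⟩
  · intro x
    rw [mem_closure_iff_frequently]
    exact (hS x).freq
  · intro δ hδ e x he
    have h1 := (hS x).curv hm he (hψ x e he) hδ
    have hκ : 0 ≤ δ / (ρ x + δ) := (div_pos hδ (add_pos_of_nonneg_of_pos (hρ0 x) hδ)).le
    have h2 := (hC e x he).smul
      (show (0 : ℂ) ≤ ((δ / (ρ x + δ) : ℝ) : ℂ) by exact_mod_cast hκ)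
    have h3 := h1.add h2
    have h4 : Λ e (e x) + (((m : ℝ)⁻¹ : ℝ) : ℂ) • hess (fun y => Real.log (ρ y + δ)) e (e x) +
        ((C * (δ / (ρ x + δ)) : ℝ) : ℂ) • χ e (e x) =
        Λ e (e x) + (((m : ℝ)⁻¹ : ℝ) : ℂ) • hess (fun y => Real.log (ρ y + δ)) e (e x) -
          ((δ / (ρ x + δ) : ℝ) : ℂ) • Λ e (e x) +
          ((δ / (ρ x + δ) : ℝ) : ℂ) • ((C : ℂ) • χ e (e x) - -Λ e (e x)) := by
      have h5 : ((C * (δ / (ρ x + δ)) : ℝ) : ℂ) = ((δ / (ρ x + δ) : ℝ) : ℂ) * (C : ℂ) := by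
        rw [← Complex.ofReal_mul, mul_comm]
      rw [h5, smul_sub, smul_neg, smul_smul]
      abel
    rw [h4]
    exact h3
  · intro x r N' g a H' h
    obtain ⟨ψ', hψ', h'⟩ := toLoc h
    refine ⟨?_, fun e he b₀ hb₀ v => ?_⟩
    · filter_upwards [h'.ev] with y hy e hey
      exact th_eq hS hm hy hey
    · rw [th_eq hS hm h' he]
      exact h'.ker hm he hb₀ v

end Vale.Agent.P281.H342.KG
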