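import Vale.Agent.P281.H342.KG.F2

/-! P281, theorem KG, block ME: the norms of the sections of `m (K_X + Δ)`, for metrics of `K_X` and of
the components of `Δ`, and their local form. -/

open scoped Manifold ContDiff Topology ComplexOrder Matrix
open Set Filter Vale.Agent.P281 Vale.Agent.P272.K Vale.Agent.P299.H223
open Vale.Agent.P284.H248 Vale.Agent.P285.TM Vale.Agent.P285.H591.TM
open Vale.Agent.P281.H949.SA Vale.Agent.P281.H716 Vale.Agent.P281.H716.IsSys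
open Vale.Agent.P272.K.AMP (hess)
open Vale.Agent.P272.K.INT (IsClosedForm)
open Vale.Agent.P281.H342.KD

set_option linter.all false

noncomputable section

namespace Vale.Agent.P281.H342.KG

open Vale.Agent.P281.H949.GM (holAt_chart holAt_ev tsymm ev_of_symm cHess_change)

variable {n : ℕ} {X : Type} [TopologicalSpace X] [ChartedSpace (Cm n) X]
  [IsManifold 𝓘(ℂ, Cm n) ω X]

lemma closed_fsum {M : ℕ} (c : Fin M → ℂ) {B : Chart n X → Cm n → Matrix (Fin n) (Fin n) ℂ}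
    (hB : IsClosedForm B) {R : Fin M → Chart n X → Cm n → Matrix (Fin n) (Fin n) ℂ}
    (hR : ∀ i, IsClosedForm (R i)) (s : Finset (Fin M)) :
    IsClosedForm fun e z => B e z + ∑ i ∈ s, c i • R i e z := by
  classical
  induction s using Finset.induction_on with
  | empty =>
    simp only [Finset.sum_empty, add_zero]
    exact hB
  | insert a s ha ih =>
    simp only [Finset.sum_insert ha]
    have h1 : (fun e z => B e z + (c a • R a e z + ∑ i ∈ s, c i • R i e z)) =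
        fun e z => (B e z + ∑ i ∈ s, c i • R i e z) + c a • R a e z := by
      funext e z
      abel
    rw [h1]
    exact ih.add ((hR a).smul (c a))

variable {κ : Type} {eqn : κ → X → (X → ℂ) → Prop} {T : Finset κ}
  {M : ℕ} {Dv : Fin M → κ} {ψ : Fin M → X → X → ℝ} {φ : Chart n X → Cm n → ℝ} {k : κ → ℕ} {m : ℕ}
  {s : X → ℂ} {e e' : Chart n X} {x p : X} {dl : Fin M → ℝ}

/-- the class of `K_X + ∑ dl i Dv i` is closed -/
theorem closed_cls {R : Fin M → Chart n X → Cm n → Matrix (Fin n) (Fin n) ℂ}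
    (hR : ∀ i, IsClosedForm (R i)) (hφ : IsCanonicalMetric φ) :
    IsClosedForm (H713.KD.clsK φ dl R) :=
  closed_fsum (fun i => ((dl i : ℝ) : ℂ)) (INT.isClosedForm_canonical hφ) hR Finset.univ

/-- the weights of the metric of `m K_X + ∑ k(D) D` -/
def wg (Dv : Fin M → κ) (ψ : Fin M → X → X → ℝ) (φ : Chart n X → Cm n → ℝ) (k : κ → ℕ) (m : ℕ)
    (p : X) (e : Chart n X) (z : Cm n) : ℝ :=
  m * φ e z + ∑ i, (k (Dv i) : ℝ) * ψ i p (e.symm z)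

/-- the square of the norm of a section of `m K_X + ∑ k(D) D` -/
def nrm (h : IsSys n eqn T) (Dv : Fin M → κ) (ψ : Fin M → X → X → ℝ)
    (φ : Chart n X → Cm n → ℝ) (k : κ → ℕ) (m : ℕ) (s : X → ℂ) (x : X) : ℝ :=
  ‖cR eqn T (h.GG k x) m s (chartAt (Cm n) x) x‖ ^ 2 *
    Real.exp (-wg Dv ψ φ k m x (chartAt (Cm n) x) (chartAt (Cm n) x x))

lemma nrm_nonneg (h : IsSys n eqn T) (x : X) : 0 ≤ nrm h Dv ψ φ k m s x :=
  mul_nonneg (sq_nonneg _) (Real.exp_pos _).le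

lemma nrm_eq (h : IsSys n eqn T) (hprod : ∀ f : κ → ℂ, ∏ i, f (Dv i) = ∏ D ∈ T, f D)
    (hDv : ∀ i, Dv i ∈ T) (hψ : ∀ i, Wt (OD h (Dv i) (hDv i)) (ψ i)) (hφ : IsCanonicalMetric φ)
    (hk : ∀ D, k D ≠ 0 → D ∈ T) (hs : J.IsSection (Cm n) eqn m k s) (hp : x ∈ h.dom p)
    (he : At e x) : nrm h Dv ψ φ k m s x =
      ‖cR eqn T (h.GG k p) m s e x‖ ^ 2 * Real.exp (-wg Dv ψ φ k m p e (e x)) := by
  have hx := h.self_mem_dom x
  have hc : At (chartAt (Cm n) x) x := ⟨chart_mem_atlas _ _, mem_chart_source _ _⟩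
  set c : Chart n X := chartAt (Cm n) x with hcd
  have h1 : (h.OL k).g x p x = ∏ i, h.uu (Dv i) x p x ^ k (Dv i) :=
    (hprod fun D => h.uu D x p x ^ k D).symm
  have h2 : ∀ i, (0 : ℝ) < ‖h.uu (Dv i) x p x‖ ^ 2 := fun i =>
    pow_pos (norm_pos_iff.2 (h.uu_ne (hDv i) hx hp)) 2
  have h3 : (0 : ℝ) < ‖(jacM c e x).det‖ ^ 2 :=
    pow_pos (norm_pos_iff.2 (jacM_det_ne_zero hc he)) 2
  have h4 : cR eqn T (h.GG k x) m s c x = (jacM c e x).det ^ m *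
      ((h.OL k).g x p x * cR eqn T (h.GG k p) m s e x) := by
    rw [h.cR_change hk hs hx hc he, h.cR_glue hk hs hx hp he]
  have h5 : ∀ i, ψ i x x = ψ i p x + Real.log (‖h.uu (Dv i) x p x‖ ^ 2) := fun i =>
    (hψ i).change x p x hx hp
  have h6 : wg Dv ψ φ k m x c (c x) = wg Dv ψ φ k m p e (e x) +
      (m * Real.log (‖(jacM c e x).det‖ ^ 2) +
        ∑ i, (k (Dv i) : ℝ) * Real.log (‖h.uu (Dv i) x p x‖ ^ 2)) := by
    unfold wg
    rw [hc.left_inv, he.left_inv, hφ.change c e x hc he]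
    have h7 : ∑ i, (k (Dv i) : ℝ) * ψ i x x = ∑ i, (k (Dv i) : ℝ) * ψ i p x +
        ∑ i, (k (Dv i) : ℝ) * Real.log (‖h.uu (Dv i) x p x‖ ^ 2) := by
      rw [← Finset.sum_add_distrib]
      exact Finset.sum_congr rfl fun i _ => by rw [h5]; ring
    rw [h7]
    ring
  have h8 : ‖(jacM c e x).det ^ m * ((h.OL k).g x p x * cR eqn T (h.GG k p) m s e x)‖ ^ 2 =
      (‖(jacM c e x).det‖ ^ 2) ^ m * (∏ i, (‖h.uu (Dv i) x p x‖ ^ 2) ^ k (Dv i)) *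
        ‖cR eqn T (h.GG k p) m s e x‖ ^ 2 := by
    rw [norm_mul, norm_mul, h1, norm_prod, norm_pow, mul_pow, mul_pow, ← Finset.prod_pow,
      ← pow_mul, ← pow_mul, mul_comm m 2, mul_assoc]
    congr 2
    refine Finset.prod_congr rfl fun i _ => ?_
    rw [norm_pow, ← pow_mul, ← pow_mul, mul_comm]
  have h9 : Real.exp (-(m * Real.log (‖(jacM c e x).det‖ ^ 2) +
      ∑ i, (k (Dv i) : ℝ) * Real.log (‖h.uu (Dv i) x p x‖ ^ 2))) =
      ((‖(jacM c e x).det‖ ^ 2) ^ m * ∏ i, (‖h.uu (Dv i) x p x‖ ^ 2) ^ k (Dv i))⁻¹ := by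
    rw [Real.exp_neg, Real.exp_add, Real.exp_nat_mul, Real.exp_log h3, Real.exp_sum]
    congr 2
    refine Finset.prod_congr rfl fun i _ => ?_
    rw [Real.exp_nat_mul, Real.exp_log (h2 i)]
  have h10 : (‖(jacM c e x).det‖ ^ 2) ^ m * ∏ i, (‖h.uu (Dv i) x p x‖ ^ 2) ^ k (Dv i) ≠ 0 :=
    mul_ne_zero (pow_pos h3 m).ne' (Finset.prod_ne_zero_iff.2 fun i _ => (pow_pos (h2 i) _).ne')
  show ‖cR eqn T (h.GG k x) m s c x‖ ^ 2 * Real.exp (-wg Dv ψ φ k m x c (c x)) = _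
  rw [h4, h8, h6, neg_add, Real.exp_add, h9]
  have key : ∀ A B E : ℝ, A ≠ 0 → A * B * (E * A⁻¹) = B * E := by
    intro A B E hA
    field_simp
  exact key _ _ _ h10

/-- the weights are smooth -/
lemma wg_smooth (h : IsSys n eqn T) (hDv : ∀ i, Dv i ∈ T)
    (hψ : ∀ i, Wt (OD h (Dv i) (hDv i)) (ψ i)) (hφ : IsCanonicalMetric φ) (hp : x ∈ h.dom p)
    (he : At e x) : ContDiffAt ℝ ∞ (wg Dv ψ φ k m p e) (e x) := by
  refine (contDiffAt_const.mul (hφ.smooth e x he)).add ?_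
  exact ContDiffAt.sum fun i _ => contDiffAt_const.mul ((hψ i).smooth p e x he hp)

/-- the curvature -/
lemma wg_hess (h : IsSys n eqn T) (hDv : ∀ i, Dv i ∈ T)
    (hψ : ∀ i, Wt (OD h (Dv i) (hDv i)) (ψ i)) (hφ : IsCanonicalMetric φ) (hp : x ∈ h.dom p)
    (he : At e x) (hkd : ∀ i, (k (Dv i) : ℝ) = m * dl i) :
    cHess (wg Dv ψ φ k m p e) (e x) = (m : ℂ) • H713.KD.clsK φ dl
      (fun i => cv (OD h (Dv i) (hDv i)) (ψ i)) e (e x) := by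
  have h1 : ContDiffAt ℝ 2 (φ e) (e x) := (hφ.smooth e x he).of_le two_le_infty
  have h2 : ∀ i, ContDiffAt ℝ 2 (fun z => ψ i p (e.symm z)) (e x) := fun i =>
    ((hψ i).smooth p e x he hp).of_le two_le_infty
  have h3 : ContDiffAt ℝ 2 (fun z => ∑ i, (k (Dv i) : ℝ) * ψ i p (e.symm z)) (e x) :=
    ContDiffAt.sum fun i _ => contDiffAt_const.mul (h2 i)
  show cHess (fun z => m * φ e z + ∑ i, (k (Dv i) : ℝ) * ψ i p (e.symm z)) (e x) = (m : ℂ) •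
    (cHess (φ e) (e x) + ∑ i, ((dl i : ℝ) : ℂ) • cv (OD h (Dv i) (hDv i)) (ψ i) e (e x))
  rw [cHess_add (contDiffAt_const.mul h1) h3, cHess_const_mul _ h1,
    cHess_fsum (fun i => (k (Dv i) : ℝ)) h2 Finset.univ, smul_add, Finset.smul_sum]
  congr 1
  refine Finset.sum_congr rfl fun i _ => ?_
  rw [cv_eq (hψ i) he (i := p) hp, smul_smul, hkd]
  push_cast
  rfl

/-- the local form of the norm in a chart -/
lemma nrm_ev (h : IsSys n eqn T) (hprod : ∀ f : κ → ℂ, ∏ i, f (Dv i) = ∏ D ∈ T, f D)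
    (hDv : ∀ i, Dv i ∈ T) (hψ : ∀ i, Wt (OD h (Dv i) (hDv i)) (ψ i)) (hφ : IsCanonicalMetric φ)
    (hk : ∀ D, k D ≠ 0 → D ∈ T) (hs : J.IsSection (Cm n) eqn m k s) (hp : x ∈ h.dom p)
    (he : At e x) : ∀ᶠ z in 𝓝 (e x), nrm h Dv ψ φ k m s (e.symm z) =
      ‖cR eqn T (h.GG k p) m s e (e.symm z)‖ ^ 2 * Real.exp (-wg Dv ψ φ k m p e z) := by
  filter_upwards [mem_U_nhds (L := h.OL k) he (i := p) hp, he.nhds_target] with z h1 h2
  have h3 := nrm_eq h hprod hDv hψ hφ hk hs (p := p) h1 (At.of_target he.1 h2)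
  rwa [e.right_inv h2] at h3

/-- smoothness of the norm -/
theorem nrm_smooth (h : IsSys n eqn T) (hprod : ∀ f : κ → ℂ, ∏ i, f (Dv i) = ∏ D ∈ T, f D)
    (hDv : ∀ i, Dv i ∈ T) (hψ : ∀ i, Wt (OD h (Dv i) (hDv i)) (ψ i)) (hφ : IsCanonicalMetric φ)
    (hk : ∀ D, k D ≠ 0 → D ∈ T) (hs : J.IsSection (Cm n) eqn m k s) :
    SmoothFn (n := n) (nrm h Dv ψ φ k m s) := by
  intro e x he
  have hx := h.self_mem_dom x
  refine ContDiffAt.congr_of_eventuallyEq ?_ (nrm_ev h hprod hDv hψ hφ hk hs hx he)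
  have h1 : ContDiffAt ℂ ω (fun z (_ : Fin 1) => cR eqn T (h.GG k x) m s e (e.symm z)) (e x) :=
    contDiffAt_pi.2 fun _ => holV_chart he (h.cR_hol hk hs hx he)
  have h2 : (fun z => ‖cR eqn T (h.GG k x) m s e (e.symm z)‖ ^ 2 *
      Real.exp (-wg Dv ψ φ k m x e z)) = fun z => nsq (fun (_ : Fin 1) =>
        cR eqn T (h.GG k x) m s e (e.symm z)) * Real.exp (-wg Dv ψ φ k m x e z) := by
    funext z
    simp [nsq]
  rw [h2]
  exact (smooth_nsq h1).mul (wg_smooth h hDv hψ hφ hx he).neg.exp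

/-- **the norms of two sections of the same line bundle** (as in `CorePartF`) -/
theorem nrm_loc (h : IsSys n eqn T) (hprod : ∀ f : κ → ℂ, ∏ i, f (Dv i) = ∏ D ∈ T, f D)
    (hDv : ∀ i, Dv i ∈ T) (hψ : ∀ i, Wt (OD h (Dv i) (hDv i)) (ψ i)) (hφ : IsCanonicalMetric φ)
    (hk : ∀ D, k D ≠ 0 → D ∈ T) (hkd : ∀ i, (k (Dv i) : ℝ) = m * dl i) {s₀ s₁ : X → ℂ}
    (hs₀ : J.IsSection (Cm n) eqn m k s₀) (hs₁ : J.IsSection (Cm n) eqn m k s₁) (x : X) :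
    ∃ (e : Chart n X) (Ψ : Cm n → ℝ) (c₀ c₁ : Cm n → ℂ), At e x ∧
      ContDiffAt ℝ ∞ Ψ (e x) ∧ AnalyticAt ℂ c₀ (e x) ∧ AnalyticAt ℂ c₁ (e x) ∧
      cHess Ψ (e x) = (m : ℂ) • H713.KD.clsK φ dl
        (fun i => cv (OD h (Dv i) (hDv i)) (ψ i)) e (e x) ∧ ∀ᶠ z in 𝓝 (e x),
          nrm h Dv ψ φ k m s₀ (e.symm z) = ‖c₀ z‖ ^ 2 * Real.exp (-Ψ z) ∧
          nrm h Dv ψ φ k m s₁ (e.symm z) = ‖c₁ z‖ ^ 2 * Real.exp (-Ψ z) := by
  have hx := h.self_mem_dom x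
  have hc : At (chartAt (Cm n) x) x := ⟨chart_mem_atlas _ _, mem_chart_source _ _⟩
  refine ⟨chartAt (Cm n) x, wg Dv ψ φ k m x (chartAt (Cm n) x),
    fun z => cR eqn T (h.GG k x) m s₀ (chartAt (Cm n) x) ((chartAt (Cm n) x).symm z),
    fun z => cR eqn T (h.GG k x) m s₁ (chartAt (Cm n) x) ((chartAt (Cm n) x).symm z), hc,
    wg_smooth h hDv hψ hφ hx hc, (holV_chart hc (h.cR_hol hk hs₀ hx hc)).analyticAt,
    (holV_chart hc (h.cR_hol hk hs₁ hx hc)).analyticAt, wg_hess h hDv hψ hφ hx hc hkd, ?_⟩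
  filter_upwards [nrm_ev h hprod hDv hψ hφ hk hs₀ hx hc, nrm_ev h hprod hDv hψ hφ hk hs₁ hx hc]
    with z h1 h2 using ⟨h1, h2⟩

/-- off the divisors -/
lemma nrm_off (h : IsSys n eqn T) (hk : ∀ D, k D ≠ 0 → D ∈ T)
    (hs : J.IsSection (Cm n) eqn m k s) (hx : x ∈ off eqn T) : nrm h Dv ψ φ k m s x =
      ‖s x‖ ^ 2 * (‖h.GG k x x‖ ^ 2 *
        Real.exp (-wg Dv ψ φ k m x (chartAt (Cm n) x) (chartAt (Cm n) x x))) := by
  have hc : At (chartAt (Cm n) x) x := ⟨chart_mem_atlas _ _, mem_chart_source _ _⟩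
  unfold nrm
  rw [h.cR_eq hk hs (h.self_mem_dom x) hc hx, dj_self, one_pow, div_one, norm_mul, mul_pow,
    mul_assoc]

theorem nrm_pos_iff (h : IsSys n eqn T) (hk : ∀ D, k D ≠ 0 → D ∈ T)
    (hs : J.IsSection (Cm n) eqn m k s) (hx : x ∈ off eqn T) :
    0 < nrm h Dv ψ φ k m s x ↔ s x ≠ 0 := by
  rw [nrm_off h hk hs hx]
  have h1 : 0 < ‖h.GG k x x‖ ^ 2 *
      Real.exp (-wg Dv ψ φ k m x (chartAt (Cm n) x) (chartAt (Cm n) x x)) :=
    mul_pos (pow_pos (norm_pos_iff.2 (h.GG_ne (h.self_mem_dom x) hx k)) 2) (Real.exp_pos _)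
  constructor
  · intro h2 h3
    rw [h3, norm_zero] at h2
    simp at h2
  · intro h2
    exact mul_pos (pow_pos (norm_pos_iff.2 h2) 2) h1

theorem nrm_log (h : IsSys n eqn T) (hk : ∀ D, k D ≠ 0 → D ∈ T) {s₀ s₁ : X → ℂ}
    (hs₀ : J.IsSection (Cm n) eqn m k s₀) (hs₁ : J.IsSection (Cm n) eqn m k s₁)
    (hx : x ∈ off eqn T) (h₀ : s₀ x ≠ 0) (h₁ : s₁ x ≠ 0) :
    Real.log (nrm h Dv ψ φ k m s₁ x) - Real.log (nrm h Dv ψ φ k m s₀ x) =
      Real.log (‖s₁ x‖ ^ 2) - Real.log (‖s₀ x‖ ^ 2) := by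
  rw [nrm_off h hk hs₀ hx, nrm_off h hk hs₁ hx]
  have h1 : 0 < ‖h.GG k x x‖ ^ 2 *
      Real.exp (-wg Dv ψ φ k m x (chartAt (Cm n) x) (chartAt (Cm n) x x)) :=
    mul_pos (pow_pos (norm_pos_iff.2 (h.GG_ne (h.self_mem_dom x) hx k)) 2) (Real.exp_pos _)
  rw [Real.log_mul (pow_pos (norm_pos_iff.2 h₁) 2).ne' h1.ne',
    Real.log_mul (pow_pos (norm_pos_iff.2 h₀) 2).ne' h1.ne']
  ring

end Vale.Agent.P281.H342.KG
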