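import Vale.Agent.P281.H167.KG.SysDefs
import Vale.Agent.P281.H342.KG.ME4

/-! P281, theorem KG, block ME. -/

open scoped Manifold ContDiff Topology ComplexOrder
open Set Filter Vale.Agent.P272.K

set_option linter.all false

noncomputable section

namespace Vale.Agent.P281.H342.KG

open Vale.Agent.P281.H716 Vale.Agent.P281.H716.IsSys

/-- **Block KG-ME.** -/
theorem metPartG : H167.KG.MetPartG := by
  intro n X _ _ _ _ _ _ κ eqn T h φ hφ Δ m N hm k hk hkΔ M Dv hinj hT hDv ψ hψ S hS hloc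
  classical
  have hprod : ∀ f : κ → ℂ, ∏ i, f (Dv i) = ∏ D ∈ T, f D := by
    intro f
    have h1 : T = Finset.univ.image Dv := by
      ext D
      rw [hT D, Finset.mem_image]
      exact ⟨fun ⟨i, hi⟩ => ⟨i, Finset.mem_univ i, hi⟩, fun ⟨i, _, hi⟩ => ⟨i, hi⟩⟩
    rw [h1, Finset.prod_image fun i _ j _ hij => hinj hij]
  refine ⟨closed_cls (fun i => Vale.Agent.P285.H591.TM.isClosedForm_cv (hψ i)) hφ,
    ⟨fun y => ∑ b, nrm h Dv ψ φ k m (S b) y, ?_⟩, ?_⟩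
  · rintro x r g a H ⟨hg, hH, hne, T', q, hT', hq, hev⟩
    exact locAt h hprod hDv hψ hφ hk (fun i => hkΔ (Dv i)) hS hT' hq hg hH hne hev
  · intro m₁ k₁ s₀ s₁ hk₁ hs₀ hs₁
    have hk1 : ∀ D, k₁ D ≠ 0 → D ∈ T := by
      intro D hD
      refine hk D fun h0 => hD ?_
      have h1 := hkΔ D
      rw [h0, Nat.cast_zero] at h1
      have h2 : Δ D = 0 := by
        rcases mul_eq_zero.1 h1.symm with h3 | h3
        · exact absurd h3 (by exact_mod_cast hm.ne')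
        · exact h3
      have h3 := hk₁ D
      rw [h2, mul_zero] at h3
      exact_mod_cast h3
    exact ⟨nrm h Dv ψ φ k₁ m₁ s₀, nrm h Dv ψ φ k₁ m₁ s₁,
      nrm_smooth h hprod hDv hψ hφ hk1 hs₀, nrm_smooth h hprod hDv hψ hφ hk1 hs₁,
      nrm_loc h hprod hDv hψ hφ hk1 (fun i => hk₁ (Dv i)) hs₀ hs₁, fun x hx =>
      ⟨nrm_pos_iff h hk1 hs₀ hx, nrm_pos_iff h hk1 hs₁ hx, nrm_log h hk1 hs₀ hs₁ hx⟩⟩

end Vale.Agent.P281.H342.KG
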