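import Vale.Agent.P281.H167.KG.Iface
import Vale.Agent.P281.H342.KD.ME2
import Vale.Agent.P281.H167.SA.K
import Vale.Agent.P281.H167.GM.M6
import Vale.Agent.P281.H76.FibKod

/-! P281: theorem KG contains theorem KD (`K_X + Δ` semiample): the case of no fixed divisor. -/

open scoped Manifold ContDiff Topology ComplexOrder
open Set Filter Vale.Agent.P281 Vale.Agent.P272.K
open Vale.Agent.P281.H949.SA Vale.Agent.P281.H716 Vale.Agent.P281.H716.IsSys
open Vale.Agent.P281.H342.KD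

set_option linter.all false

noncomputable section

namespace Vale.Agent.P281.H342.KG

section

variable {n d : ℕ} {X F : Type} [TopologicalSpace X] [ChartedSpace (Cm n) X]
  [IsManifold 𝓘(ℂ, Cm n) ω X] [TopologicalSpace F] [ChartedSpace (Cm d) F]
  [IsManifold 𝓘(ℂ, Cm d) ω F] {T : Finset (Set X)} {k : Set X → ℕ} {m N : ℕ}
  {s : Fin N → X → ℂ}

/-- sections which generate: no fixed divisor -/
theorem good_of_gen (h : IsSys n (eqD n) T) (hr : Gen n (eqD n) T k m s)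
    (hkT : ∀ D ∈ T, k D ≠ 0) {ι : F → X} (hι : ∀ t, HolM (Cm d) (Cm n) ι t)
    (β : Chart d F → Cm d → Matrix (Fin d) (Fin d) ℂ) :
    H167.IsGoodFixP n d m 0 k ι s β := by
  intro t
  have hx := h.self_mem_dom (ι t)
  have hc : At (chartAt (Cm n) (ι t)) (ι t) := ⟨chart_mem_atlas _ _, mem_chart_source _ _⟩
  obtain ⟨b₀, hb₀⟩ := hr.gen (ι t)
  refine ⟨T, fun D => h.gg D (ι t), 0, fun i => i.elim0, fun i => i.elim0,
    fun b z => cR (eqD n) T (h.GG k (ι t)) m (s b) (chartAt (Cm n) (ι t)) (ι z), hr.supp,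
    fun D hD => h.gg_spec hD (ι t), fun i => i.elim0, fun b => ?_, ⟨b₀, ?_⟩, ?_⟩
  · exact HolV.comp (h.cR_hol hr.supp (hr.sec b) hx hc) (hι t)
  · exact h.cR_ne hr.supp hb₀ hx hc
  · filter_upwards [(hι t).continuousAt.eventually (h.dom_ev hx),
      (hι t).continuousAt.eventually (at_ev hc)] with z h1 h2
    refine ⟨fun h3 b => ?_, fun i => i.elim0⟩
    have h4 : ι z ∈ off (eqD n) T := by
      refine (h.off_iff h1).2 (Finset.prod_ne_zero_iff.2 fun D hD h0 => ?_)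
      refine h3 (Finset.prod_eq_zero hD ?_)
      show h.gg D (ι t) (ι z) ^ k D = 0
      rw [h0, zero_pow (hkT D hD)]
    have h5 := h.cR_eq hr.supp (hr.sec b) h1 h2 h4
    show s b (ι z) * h.GG k (ι t) (ι z) = _ * cR (eqD n) T (h.GG k (ι t)) m (s b)
      (chartAt (Cm n) (ι t)) (ι z) * dj (chartAt (Cm n) (ι t)) (ι z) ^ m
    rw [h5, Finset.univ_eq_empty, Finset.prod_empty, one_mul,
      div_mul_cancel₀ _ (pow_ne_zero _ (dj_ne_zero h2))]

theorem rank_of_gen (h : IsSys n (eqD n) T) (hr : Gen n (eqD n) T k m s)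
    (hex : ∀ D ∈ T, ∀ x, ∃ g, J.IsLocalEq (Cm n) D g x) {ι : F → X}
    (hι : ∃ t, ∀ D ∈ T, ι t ∉ D) : H167.HasRankP d 0 k ι s := by
  obtain ⟨t, ht⟩ := hι
  have hx := h.self_mem_dom (ι t)
  have hc : At (chartAt (Cm n) (ι t)) (ι t) := ⟨chart_mem_atlas _ _, mem_chart_source _ _⟩
  obtain ⟨b₀, hb₀⟩ := hr.gen (ι t)
  refine ⟨t, b₀, fun i => i.elim0, fun D hD => ht D (hr.supp D hD), ?_, fun y => ⟨0, ?_⟩⟩
  · have h1 := h.cR_ne hr.supp hb₀ hx hc
    rw [h.cR_eq hr.supp (hr.sec b₀) hx hc ((off_eqD hex).2 ht)] at h1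
    intro h0
    rw [h0, zero_mul, zero_div] at h1
    exact h1 rfl
  · funext i
    exact i.elim0

/-- a point of `F` off finitely many divisors -/
theorem exists_off [PreconnectedSpace F] [Nonempty F] {ι : F → X}
    (hι : ∀ t, HolM (Cm d) (Cm n) ι t) (hex : ∀ D ∈ T, ∀ x, ∃ g, J.IsLocalEq (Cm n) D g x)
    (hne : ∀ D ∈ T, ∃ t, ι t ∉ D) : ∃ t, ∀ D ∈ T, ι t ∉ D := by
  classical
  have key : ∀ S : Finset (Set X), S ⊆ T → Dense {t | ∀ D ∈ S, ι t ∉ D} := by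
    intro S
    induction S using Finset.induction_on with
    | empty =>
      intro _
      simp
    | insert D S hD ih =>
      intro hS
      have h1 : Dense {p | ι p ∉ D} := H76.dense_restrict (E := Cm n) hι
        (hex D (hS (Finset.mem_insert_self D S))) (hne D (hS (Finset.mem_insert_self D S)))
      have h2 : IsOpen {p | ι p ∉ D} := by
        rw [isOpen_iff_mem_nhds]
        intro p hp
        obtain ⟨g, hg⟩ := hex D (hS (Finset.mem_insert_self D S)) (ι p)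
        have h3 : ∀ᶠ x in 𝓝 (ι p), g x ≠ 0 :=
          (IsLocalEq.holAt (E := Cm n) (D := D) hg).continuousAt.eventually_ne
            (fun h0 => hp ((mem_iff hg).2 h0))
        have h4 := IsLocalEq.eventually (E := Cm n) (D := D) hg
        filter_upwards [(hι p).continuousAt.eventually (h3.and h4)] with q hq hqD
        exact hq.1 ((mem_iff hq.2).1 hqD)
      have h3 := h1.inter_of_isOpen_left (ih fun D' hD' => hS (Finset.mem_insert_of_mem hD')) h2
      refine h3.mono ?_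
      rintro t ⟨h4, h5⟩ D' hD'
      rcases Finset.mem_insert.1 hD' with rfl | h6
      · exact h4
      · exact h5 D' h6
  exact (key T (Finset.Subset.refl T)).nonempty

end

/-- **KG contains KD.** -/
theorem kd_of_kg (hG : H167.KG.MainPartG) : H713.KD.MainPartK := by
  intro n p d hnpd X Z Y F _ _ _ _ _ _ _ _ _ _ _ _ _ _ _ _ _ _ _ _ χ hχ Δ hΔ hΔ1 hsa
    j hj f hf 𝒢 h𝒢 Δ' hΔ' hres hbase i hi hne
  classical
  obtain ⟨m, N, k, s, hm, hk, hs, hgen⟩ := hsa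
  obtain ⟨T, hT⟩ : ∃ T : Finset (Set X), ∀ D, D ∈ T ↔ Δ D ≠ 0 :=
    ⟨hΔ.1.toFinset, fun D => by rw [Set.Finite.mem_toFinset]; rfl⟩
  have hex : ∀ D ∈ T, ∀ x, ∃ g, J.IsLocalEq (Cm n) D g x := fun D hD =>
    (hΔ.2.1 D ((hT D).1 hD)).2.1
  have h : IsSys n (eqD n) T := isSys_eqD hex
  have hm' : (m : ℝ) ≠ 0 := by exact_mod_cast hm.ne'
  have hkT : ∀ D, k D ≠ 0 → D ∈ T := by
    intro D hD
    refine (hT D).2 fun h0 => hD ?_
    have h1 := hk D
    rw [h0, mul_zero] at h1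
    exact_mod_cast h1
  have hTk : ∀ D ∈ T, k D ≠ 0 := by
    intro D hD h0
    have h1 := hk D
    rw [h0, Nat.cast_zero] at h1
    exact mul_ne_zero hm' ((hT D).1 hD) h1.symm
  have hr : Gen n (eqD n) T k m s := ⟨hkT, hs, hgen⟩
  have hjh : ∀ z, HolM (Cm n) (Cm n) j z := fun z => hj.1 z
  have hih : ∀ z, HolM (Cm d) (Cm n) i z := fun z => hi.hol z
  have hι : ∀ t, HolM (Cm d) (Cm n) (fun t => j (i t)) t := fun t =>
    ContMDiffAt.comp t (hjh (i t)) (hih t)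
  have hid : ∀ x : X, HolM (Cm n) (Cm n) (id : X → X) x := fun x => contMDiffAt_id
  have himm : ∀ t, Function.Injective (mfderiv 𝓘(ℂ, Cm d) 𝓘(ℂ, Cm n) (fun t => j (i t)) t) := by
    intro t
    have h1 : mfderiv 𝓘(ℂ, Cm d) 𝓘(ℂ, Cm n) (fun t => j (i t)) t =
        (mfderiv 𝓘(ℂ, Cm n) 𝓘(ℂ, Cm n) j (i t)).comp (mfderiv 𝓘(ℂ, Cm d) 𝓘(ℂ, Cm n) i t) :=
      mfderiv_comp t ((hjh (i t)).mdifferentiableAt (by simp))
        ((hih t).mdifferentiableAt (by simp))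
    rw [h1]
    exact (hj.2.2.1 (i t)).comp (hi.immersive t)
  obtain ⟨χF, hχF⟩ := H167.SA.pullPart n d X F (fun t => j (i t)) hι himm χ hχ
  have hneT : ∀ D ∈ T, ∃ t, j (i t) ∉ D := fun D hD => hne D ((hT D).1 hD)
  have h1 := exists_off (T := T) hι hex hneT
  have h2 : ∃ x : X, ∀ D ∈ T, (id x : X) ∉ D := by
    obtain ⟨t, ht⟩ := h1
    exact ⟨j (i t), ht⟩
  exact hG n p d hnpd X Z Y F χ hχ Δ hΔ hΔ1 m N hm k hk s hs j hj f hf 𝒢 h𝒢 Δ' hΔ' hres hbase i hi
    hne 0 (rank_of_gen h hr hex h2) χ (H167.GM.IsKahler.isSemiKahler hχ)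
    (good_of_gen h hr hTk hid χ) 0 (rank_of_gen h hr hex h1) χF
    (H167.GM.IsKahler.isSemiKahler hχF) (good_of_gen h hr hTk hι χF)

end Vale.Agent.P281.H342.KG
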