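import Vale.Agent.P281.H949.GM.F
import Vale.Agent.P281.H342.KD.ME2

/-! P281, theorem KG, block F: the form defined by a function which is locally
`|P|² ∑ |H_b|² exp (-m ψ)`. -/

open scoped Manifold ContDiff Topology ComplexOrder
open Set Filter Vale.Agent.P281.J Vale.Agent.P272.K Vale.Agent.P272.K.AMP
open Vale.Agent.P299
open Vale.Agent.P272.K.INT (IsClosedForm)

set_option linter.all false

noncomputable section

namespace Vale.Agent.P281.H342.KG

open Vale.Agent.P281.H949.SA Vale.Agent.P281.H713.SA Vale.Agent.P299.H223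
open Vale.Agent.P281.H949.GM (holAt_chart holAt_ev tsymm ev_of_symm cHess_change vec_holo fsM_smul
  isClosedForm_of_pot uu uu_pos smooth_uu curv_uu)

variable {n : ℕ} {X : Type} [TopologicalSpace X] [ChartedSpace (Cm n) X]

/-- the local form -/
structure Loc (m : ℕ) (Λ : D.FormM n X) (ρ : X → ℝ) (x : X) {N : ℕ} (P : X → ℂ)
    (H : Fin N → X → ℂ) (ψ : X → ℝ) : Prop where
  holP : HolAt (Cm n) P x
  nz : ∃ᶠ z in 𝓝 x, P z ≠ 0
  hol : ∀ b, HolAt (Cm n) (H b) x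
  ne : (fun b => H b x) ≠ 0
  smooth : ∀ᶠ y in 𝓝 x, ∀ e : Chart n X, At e y → ContDiffAt ℝ 2 (fun z => ψ (e.symm z)) (e y)
  form : ∀ᶠ y in 𝓝 x, ∀ e : Chart n X, At e y → Λ e (e y) = hess ψ e (e y)
  eq : ∀ᶠ y in 𝓝 x, ρ y = ‖P y‖ ^ 2 * nsq (fun b => H b y) * Real.exp (-(m * ψ y))

variable [IsManifold 𝓘(ℂ, Cm n) ω X] {m N : ℕ} {Λ : D.FormM n X} {ρ : X → ℝ} {x y : X}
  {P : X → ℂ} {H : Fin N → X → ℂ} {ψ : X → ℝ} {e : Chart n X}

/-- a holomorphic function which is not locally zero -/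
lemma nz_ev (hP : HolAt (Cm n) P x) (h : ∃ᶠ z in 𝓝 x, P z ≠ 0) :
    ∀ᶠ y in 𝓝 x, ∃ᶠ z in 𝓝 y, P z ≠ 0 := by
  set e : Chart n X := chartAt (Cm n) x with he
  have hex : At e x := ⟨chart_mem_atlas _ _, mem_chart_source _ _⟩
  have han := (holAt_chart hex hP).analyticAt.eventually_analyticAt
  obtain ⟨r, hr, hball⟩ := Metric.eventually_nhds_iff_ball.1 han
  filter_upwards [e.open_source.mem_nhds hex.2,
    (e.continuousAt hex.2).preimage_mem_nhds (Metric.ball_mem_nhds _ hr)] with y hy1 hy2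
  intro hcon
  refine h ?_
  have hey : At e y := ⟨hex.1, hy1⟩
  have h1 : EqOn (fun z => P (e.symm z)) 0 (Metric.ball (e x) r) := by
    refine AnalyticOnNhd.eqOn_zero_of_preconnected_of_eventuallyEq_zero
      (fun z hz => hball z hz) (convex_ball _ _).isPreconnected hy2 ?_
    filter_upwards [(tsymm hey).eventually hcon] with z hz
    exact not_not.1 hz
  refine ev_of_symm hex ?_
  filter_upwards [Metric.ball_mem_nhds (e x) hr] with z hz
  exact not_not.2 (h1 hz)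

lemma Loc.ne_ev (h : Loc m Λ ρ x P H ψ) : ∀ᶠ y in 𝓝 x, (fun b => H b y) ≠ 0 := by
  obtain ⟨b, hb⟩ := Function.ne_iff.1 h.ne
  filter_upwards [(h.hol b).continuousAt.eventually_ne hb] with y hy h0
  exact hy (congrFun h0 b)

lemma Loc.ev (h : Loc m Λ ρ x P H ψ) : ∀ᶠ y in 𝓝 x, Loc m Λ ρ y P H ψ := by
  filter_upwards [holAt_ev h.holP, nz_ev h.holP h.nz,
    eventually_all.2 fun b => holAt_ev (h.hol b), h.ne_ev, eventually_eventually_nhds.2 h.smooth,
    eventually_eventually_nhds.2 h.form, eventually_eventually_nhds.2 h.eq]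
    with y h1 h2 h3 h4 h5 h6 h7
  exact ⟨h1, h2, h3, h4, h5, h6, h7⟩

lemma Loc.pos_iff (h : Loc m Λ ρ x P H ψ) : ∀ᶠ y in 𝓝 x, 0 < ρ y ↔ P y ≠ 0 := by
  filter_upwards [h.eq, h.ne_ev] with y h1 h2
  rw [h1]
  constructor
  · intro h3 h4
    rw [h4, norm_zero] at h3
    simp at h3
  · intro h3
    exact mul_pos (mul_pos (pow_pos (norm_pos_iff.2 h3) 2) (nsq_pos h2)) (Real.exp_pos _)

lemma Loc.freq (h : Loc m Λ ρ x P H ψ) : ∃ᶠ y in 𝓝 x, 0 < ρ y :=
  (h.nz.and_eventually h.pos_iff).mono fun _ hy => hy.2.2 hy.1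

lemma Loc.cd_log (h : Loc m Λ ρ x P H ψ) (he : At e x) :
    ContDiffAt ℝ ∞ (fun z => Real.log (nsq fun b => H b (e.symm z))) (e x) :=
  smooth_log_nsq (vec_holo he h.hol) (by rw [he.left_inv]; exact h.ne)

/-- the form in terms of `ρ` -/
lemma Loc.form_eq (h : Loc m Λ ρ x P H ψ) (hm : 0 < m) (he : At e x) (hρ : 0 < ρ x) :
    cHess (fun z => Real.log (nsq fun b => H b (e.symm z))) (e x) =
      (m : ℂ) • Λ e (e x) + hess (fun y => Real.log (ρ y)) e (e x) := by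
  have hP0 : P x ≠ 0 := h.pos_iff.self_of_nhds.1 hρ
  have hP := holAt_chart he h.holP
  have hψ : ContDiffAt ℝ 2 (fun z => ψ (e.symm z)) (e x) := h.smooth.self_of_nhds e he
  have hH : ContDiffAt ℝ 2 (fun z => Real.log (nsq fun b => H b (e.symm z))) (e x) :=
    (h.cd_log he).of_le H716.IsSys.two_le_infty
  have hPl : ContDiffAt ℝ 2 (fun z => Real.log (‖P (e.symm z)‖ ^ 2)) (e x) := by
    have hd : ContDiffAt ℝ 2 (fun z => P (e.symm z)) (e x) :=
      (hP.restrict_scalars ℝ).of_le (by exact le_top)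
    exact (hd.norm_sq ℝ).log (pow_ne_zero 2 (norm_ne_zero_iff.2 (by rw [he.left_inv]; exact hP0)))
  have h1 : (fun z => Real.log (ρ (e.symm z))) =ᶠ[𝓝 (e x)] fun z =>
      (Real.log (‖P (e.symm z)‖ ^ 2) + Real.log (nsq fun b => H b (e.symm z))) +
        (-(m : ℝ)) * ψ (e.symm z) := by
    filter_upwards [(tsymm he).eventually h.eq, (tsymm he).eventually h.ne_ev,
      (tsymm he).eventually (h.holP.continuousAt.eventually_ne hP0)] with z h2 h3 h4
    have h5 : ‖P (e.symm z)‖ ^ 2 ≠ 0 := pow_ne_zero 2 (norm_ne_zero_iff.2 h4)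
    rw [h2, Real.log_mul (mul_ne_zero h5 (nsq_pos h3).ne') (Real.exp_pos _).ne',
      Real.log_mul h5 (nsq_pos h3).ne', Real.log_exp]
    ring
  have h2 : hess (fun y => Real.log (ρ y)) e (e x) =
      cHess (fun z => Real.log (nsq fun b => H b (e.symm z))) (e x) +
        ((-(m : ℝ) : ℝ) : ℂ) • hess ψ e (e x) := by
    show cHess (fun z => Real.log (ρ (e.symm z))) (e x) = _
    rw [cHess_congr h1, cHess_add (hPl.add hH) (contDiffAt_const.mul hψ), cHess_add hPl hH,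
      cHess_const_mul _ hψ, cHess_log_norm_sq hP (by rw [he.left_inv]; exact hP0), zero_add]
    rfl
  rw [h2, h.form.self_of_nhds e he]
  push_cast
  rw [neg_smul]
  abel

/-- two local forms define the same form -/
lemma Loc.unique (h : Loc m Λ ρ x P H ψ) (hm : 0 < m) {N' : ℕ} {P' : X → ℂ}
    {H' : Fin N' → X → ℂ} {ψ' : X → ℝ} (h' : Loc m Λ ρ x P' H' ψ') (he : At e x) :
    cHess (fun z => Real.log (nsq fun b => H b (e.symm z))) (e x) =
      cHess (fun z => Real.log (nsq fun b => H' b (e.symm z))) (e x) := by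
  have hc : ∀ {N'' : ℕ} {P'' : X → ℂ} {H'' : Fin N'' → X → ℂ} {ψ'' : X → ℝ},
      Loc m Λ ρ x P'' H'' ψ'' → ∀ i j,
      ContinuousAt (fun z => cHess (fun z => Real.log (nsq fun b => H'' b (e.symm z))) z i j)
        (e x) := fun h'' i j => (INT.smooth_cHess (h''.cd_log he) i j).continuousAt
  have hfr : ∃ᶠ z in 𝓝 (e x), cHess (fun z => Real.log (nsq fun b => H b (e.symm z))) z =
      cHess (fun z => Real.log (nsq fun b => H' b (e.symm z))) z := by
    have h1 : ∃ᶠ y in 𝓝 x, cHess (fun z => Real.log (nsq fun b => H b (e.symm z))) (e y) =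
        cHess (fun z => Real.log (nsq fun b => H' b (e.symm z))) (e y) := by
      refine (h.freq.and_eventually (h.ev.and (h'.ev.and (e.open_source.mem_nhds he.2)))).mono ?_
      rintro y ⟨h1, h2, h3, h4⟩
      have hey : At e y := ⟨he.1, h4⟩
      rw [h2.form_eq hm hey h1, h3.form_eq hm hey h1]
    intro hcon
    refine h1 ?_
    filter_upwards [(e.continuousAt he.2).eventually hcon] with y hy using hy
  ext i j
  by_contra hne
  refine hfr ?_
  filter_upwards [((hc h i j).sub (hc h' i j)).eventually_ne (sub_ne_zero.2 hne)] with z hz hz2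
  exact hz (sub_eq_zero.2 (congrFun (congrFun hz2 i) j))

/-- the form -/
def th (m : ℕ) {N : X → ℕ} (H : ∀ x, Fin (N x) → X → ℂ) : D.FormM n X := fun e z =>
  (((m : ℝ)⁻¹ : ℝ) : ℂ) • cHess (fun w => Real.log (nsq fun b => H (e.symm z) b (e.symm w))) z

section th

variable {N' : X → ℕ} {P' : X → X → ℂ} {H' : ∀ x, Fin (N' x) → X → ℂ} {ψ' : X → X → ℝ}

lemma th_at (he : At e x) : th (n := n) m H' e (e x) =
    (((m : ℝ)⁻¹ : ℝ) : ℂ) • hess (fun y => Real.log (nsq fun b => H' x b y)) e (e x) := by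
  unfold th
  rw [he.left_inv]
  rfl

lemma th_eq (hS : ∀ x, Loc m Λ ρ x (P' x) (H' x) (ψ' x)) (hm : 0 < m)
    (h : Loc m Λ ρ x P H ψ) (he : At e x) : th (n := n) m H' e (e x) =
      (((m : ℝ)⁻¹ : ℝ) : ℂ) • hess (fun y => Real.log (nsq fun b => H b y)) e (e x) := by
  rw [th_at he]
  exact congrArg _ ((hS x).unique hm h he)

lemma th_closed (hS : ∀ x, Loc m Λ ρ x (P' x) (H' x) (ψ' x)) (hm : 0 < m) :
    IsClosedForm (th (n := n) m H') := by
  refine isClosedForm_of_pot fun x => ⟨fun y => (m : ℝ)⁻¹ * Real.log (nsq fun b => H' x b y),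
    fun e hx => contDiffAt_const.mul ((hS x).cd_log hx), ?_⟩
  filter_upwards [(hS x).ev] with y hy e hey
  rw [th_eq hS hm hy hey]
  exact (cHess_const_mul _ ((hy.cd_log hey).of_le H716.IsSys.two_le_infty)).symm

lemma th_psd (hS : ∀ x, Loc m Λ ρ x (P' x) (H' x) (ψ' x)) (he : At e x) :
    (th (n := n) m H' e (e x)).PosSemidef := by
  rw [th_at he]
  have h0 : (fun z b => H' x b (e.symm z)) (e x) ≠ 0 := by
    show (fun b => H' x b (e.symm (e x))) ≠ 0
    rw [he.left_inv]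
    exact (hS x).ne
  exact (fsM_psd (vec_holo he (hS x).hol) h0).smul
    (by exact_mod_cast inv_nonneg.2 (Nat.cast_nonneg m))

/-- where `ρ > 0` -/
lemma th_pos (hS : ∀ x, Loc m Λ ρ x (P' x) (H' x) (ψ' x)) (hm : 0 < m) (he : At e x)
    (hρ : 0 < ρ x) : th (n := n) m H' e (e x) = Λ e (e x) + (((m : ℝ)⁻¹ : ℝ) : ℂ) •
      hess (fun y => Real.log (ρ y)) e (e x) := by
  have hm' : (m : ℂ) ≠ 0 := by exact_mod_cast hm.ne'
  rw [th_at he]
  show _ • cHess (fun z => Real.log (nsq fun b => H' x b (e.symm z))) (e x) = _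
  rw [(hS x).form_eq hm he hρ, smul_add, smul_smul]
  congr 1
  have : (((m : ℝ)⁻¹ : ℝ) : ℂ) * (m : ℂ) = 1 := by
    push_cast
    exact inv_mul_cancel₀ hm'
  rw [this, one_smul]

end th

/-- the curvature of the regularised metrics -/
lemma Loc.curv (h : Loc m Λ ρ x P H ψ) (hm : 0 < m) (he : At e x)
    (hφ : ContDiffAt ℝ ∞ (fun z => ψ (e.symm z)) (e x)) {δ : ℝ} (hδ : 0 < δ) :
    (Λ e (e x) + (((m : ℝ)⁻¹ : ℝ) : ℂ) • hess (fun y => Real.log (ρ y + δ)) e (e x) -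
      ((δ / (ρ x + δ) : ℝ) : ℂ) • Λ e (e x)).PosSemidef := by
  set c : Cm n → Fin N → ℂ := fun z b => P (e.symm z) * H b (e.symm z) with hcd
  set φ : Cm n → ℝ := fun z => ψ (e.symm z) with hφd
  have hc : ContDiffAt ℂ ω c (e x) := contDiffAt_pi.2 fun b =>
    (holAt_chart he h.holP).mul (holAt_chart he (h.hol b))
  have hφ2 : ContDiffAt ℝ 2 φ (e x) := hφ.of_le H716.IsSys.two_le_infty
  have hmR : (m : ℝ) ≠ 0 := by exact_mod_cast hm.ne'
  have hu : ContDiffAt ℝ 2 (fun z => Real.log (uu c φ m δ z)) (e x) :=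
    ((smooth_uu hc hφ).log (uu_pos hδ _).ne').of_le H716.IsSys.two_le_infty
  have hρe : ∀ᶠ z in 𝓝 (e x), ρ (e.symm z) + δ = uu c φ m δ z * Real.exp (-(m * φ z)) := by
    filter_upwards [(tsymm he).eventually h.eq] with z hz
    have h2 : c z = P (e.symm z) • fun b => H b (e.symm z) := rfl
    rw [hz, uu, h2, nsq_smul, add_mul, mul_assoc δ, ← Real.exp_add, add_neg_cancel, Real.exp_zero,
      mul_one]
  have h1 : (fun z => Real.log (ρ (e.symm z) + δ)) =ᶠ[𝓝 (e x)]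
      fun z => Real.log (uu c φ m δ z) + (-(m : ℝ)) * φ z := by
    filter_upwards [hρe] with z hz
    rw [hz, Real.log_mul (uu_pos hδ z).ne' (Real.exp_pos _).ne', Real.log_exp]
    ring
  have h2 : hess (fun y => Real.log (ρ y + δ)) e (e x) =
      cHess (fun z => Real.log (uu c φ m δ z)) (e x) + ((-(m : ℝ) : ℝ) : ℂ) • Λ e (e x) := by
    show cHess (fun z => Real.log (ρ (e.symm z) + δ)) (e x) = _
    rw [cHess_congr h1, cHess_add hu (contDiffAt_const.mul hφ2), cHess_const_mul _ hφ2,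
      h.form.self_of_nhds e he]
    rfl
  have hΛ : Λ e (e x) = cHess φ (e x) := h.form.self_of_nhds e he
  have h3 := (curv_uu hc hφ hδ (m := m)).smul
    (show (0 : ℂ) ≤ (((m : ℝ)⁻¹ : ℝ) : ℂ) by exact_mod_cast inv_nonneg.2 (Nat.cast_nonneg m))
  have h4 : δ * Real.exp (m * φ (e x)) / uu c φ m δ (e x) = δ / (ρ x + δ) := by
    have h5 := hρe.self_of_nhds
    rw [he.left_inv] at h5
    have h6 : Real.exp (m * φ (e x)) * Real.exp (-(m * φ (e x))) = 1 := by
      rw [← Real.exp_add, add_neg_cancel, Real.exp_zero]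
    have h7 : (0 : ℝ) < ρ x + δ := by
      rw [h5]; exact mul_pos (uu_pos hδ _) (Real.exp_pos _)
    rw [div_eq_div_iff (uu_pos hδ _).ne' h7.ne', h5]
    linear_combination (δ * uu c φ m δ (e x)) * h6
  rw [h2, smul_add, smul_smul]
  rw [h4, smul_sub, smul_smul, ← hΛ] at h3
  have e1 : (((m : ℝ)⁻¹ : ℝ) : ℂ) * ((-(m : ℝ) : ℝ) : ℂ) = -1 := by
    rw [← Complex.ofReal_mul]
    have : (m : ℝ)⁻¹ * (-(m : ℝ)) = -1 := by field_simp
    rw [this]; push_cast; rfl
  have e2 : (((m : ℝ)⁻¹ : ℝ) : ℂ) * (((δ / (ρ x + δ) * m : ℝ)) : ℂ) = ((δ / (ρ x + δ) : ℝ) : ℂ) := by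
    rw [← Complex.ofReal_mul]
    congr 1
    field_simp
  rw [e1, neg_one_smul]
  rw [e2] at h3
  have e3 : Λ e (e x) + ((((m : ℝ)⁻¹ : ℝ) : ℂ) • cHess (fun z => Real.log (uu c φ m δ z)) (e x) +
      -Λ e (e x)) - ((δ / (ρ x + δ) : ℝ) : ℂ) • Λ e (e x) =
      (((m : ℝ)⁻¹ : ℝ) : ℂ) • cHess (fun z => Real.log (uu c φ m δ z)) (e x) -
        ((δ / (ρ x + δ) : ℝ) : ℂ) • Λ e (e x) := by abel
  rw [e3]
  exact h3

/-- smoothness of `ρ` -/
lemma Loc.smooth_rho (h : Loc m Λ ρ x P H ψ) (he : At e x)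
    (hφ : ContDiffAt ℝ ∞ (fun z => ψ (e.symm z)) (e x)) :
    ContDiffAt ℝ ∞ (fun z => ρ (e.symm z)) (e x) := by
  set c : Cm n → Fin N → ℂ := fun z b => P (e.symm z) * H b (e.symm z) with hcd
  have hc : ContDiffAt ℂ ω c (e x) := contDiffAt_pi.2 fun b =>
    (holAt_chart he h.holP).mul (holAt_chart he (h.hol b))
  have h1 : ContDiffAt ℝ ∞ (fun z => (m : ℝ) * ψ (e.symm z)) (e x) := contDiffAt_const.mul hφ
  refine ((smooth_nsq hc).mul h1.neg.exp).congr_of_eventuallyEq ?_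
  filter_upwards [(tsymm he).eventually h.eq] with z hz
  have h2 : c z = P (e.symm z) • fun b => H b (e.symm z) := rfl
  rw [hz, h2, nsq_smul]

/-- the kernel -/
lemma Loc.ker (h : Loc m Λ ρ x P H ψ) (hm : 0 < m) (he : At e x) {b₀ : Fin N} (hb₀ : H b₀ x ≠ 0)
    (v : Cm n) : (∀ j, ∑ i, v i * ((((m : ℝ)⁻¹ : ℝ) : ℂ) •
      hess (fun y => Real.log (nsq fun b => H b y)) e (e x)) i j = 0) ↔
        ∀ b, fderiv ℂ (fun z => H b (e.symm z) / H b₀ (e.symm z)) (e x) v = 0 := by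
  have hc : ((((m : ℝ)⁻¹ : ℝ) : ℂ)) ≠ 0 := by
    have : (m : ℝ) ≠ 0 := by exact_mod_cast hm.ne'
    exact_mod_cast inv_ne_zero this
  rw [H342.KD.smul_ker hc]
  have hF : ContDiffAt ℂ ω (fun z b => H b (e.symm z)) (e x) := vec_holo he h.hol
  have hF0 : (fun z b => H b (e.symm z)) (e x) ≠ 0 := by
    show (fun b => H b (e.symm (e x))) ≠ 0
    rw [he.left_inv]
    exact h.ne
  show (∀ j, ∑ i, v i * fsM (fun z b => H b (e.symm z)) (e x) i j = 0) ↔ _
  rw [fsM_ker hF hF0]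
  exact fderiv_quot hF (b₀ := b₀) (by show H b₀ (e.symm (e x)) ≠ 0; rw [he.left_inv]; exact hb₀) v

end Vale.Agent.P281.H342.KG
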